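import Mathlib

/-!
# P355: mutually unbiased bases of `ℂ^6` of Gaussian and of Eisenstein type

Coordinates are taken in the fixed standard coordinate system of `ℂ^6`.  An orthonormal basis is
of *Gaussian type* if every one of its vectors, after multiplication by a suitable phase and by
`√6`, has all coordinates in `ℤ[i]`; it is of *Eisenstein type* if the same holds with `ℤ[ω]`,
`ω = (-1 + √3 i)/2`.  Bases given by Hadamard matrices of order six whose entries are fourth
roots of unity are of Gaussian type; those with entries sixth (or third) roots of unity, such as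
the Fourier basis, are of Eisenstein type.

We prove: two bases of Gaussian type are never mutually unbiased, two bases of Eisenstein type
are never mutually unbiased, and therefore a family of pairwise mutually unbiased bases in which
all members but at most one are of Gaussian or of Eisenstein type has at most three members.
The reason is that `6` is neither of the form `x^2 + y^2` nor of the form `x^2 - x y + y^2`.
-/

namespace Vale.Agent.Results.P355.A_ButsonTypeBases

open Complex

/-- The primitive cube root of unity `(-1 + √3 i) / 2`. -/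
noncomputable def rho : ℂ := ⟨-1 / 2, Real.sqrt 3 / 2⟩

/-- The type of orthonormal bases of `ℂ^6`, the space being `EuclideanSpace ℂ (Fin 6)`. -/
abbrev Basis6 : Type := OrthonormalBasis (Fin 6) ℂ (EuclideanSpace ℂ (Fin 6))

/-- `coord b i k` is the `k`-th coordinate of the `i`-th vector of the basis `b`. -/
noncomputable def coord (b : Basis6) (i k : Fin 6) : ℂ := b i k

/-- Two orthonormal bases of `ℂ^6` are mutually unbiased: every inner product of a vector of the
first basis with a vector of the second basis has squared modulus `1/6`. -/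
def MutuallyUnbiased (b c : Basis6) : Prop :=
  ∀ i j, ‖inner ℂ (b i) (c j)‖ ^ 2 = 1 / 6

/-- Gaussian type: each basis vector, multiplied by a suitable phase `θ` and by `√6`, has all its
coordinates in `ℤ[i]`. -/
def GaussianType (b : Basis6) : Prop :=
  ∀ i, ∃ θ : ℂ, ‖θ‖ = 1 ∧
    ∀ k, ∃ x y : ℤ, θ * ((Real.sqrt 6 : ℂ) * coord b i k) = (x : ℂ) + (y : ℂ) * Complex.I

/-- Eisenstein type: each basis vector, multiplied by a suitable phase `θ` and by `√6`, has all
its coordinates in `ℤ[ω]`. -/
def EisensteinType (b : Basis6) : Prop :=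
  ∀ i, ∃ θ : ℂ, ‖θ‖ = 1 ∧
    ∀ k, ∃ x y : ℤ, θ * ((Real.sqrt 6 : ℂ) * coord b i k) = (x : ℂ) + (y : ℂ) * rho

/-- membership in `ℤ + ℤ τ` -/
def InZ (τ z : ℂ) : Prop := ∃ x y : ℤ, z = (x : ℂ) + (y : ℂ) * τ

theorem inZ_zero (τ : ℂ) : InZ τ 0 := ⟨0, 0, by simp⟩

theorem inZ_add (τ : ℂ) {z w : ℂ} (hz : InZ τ z) (hw : InZ τ w) : InZ τ (z + w) := by
  obtain ⟨x, y, rfl⟩ := hz
  obtain ⟨x', y', rfl⟩ := hw
  exact ⟨x + x', y + y', by push_cast; ring⟩

theorem inZ_mul (τ : ℂ) (c0 c1 : ℤ) (hτ : τ * τ = (c0 : ℂ) + (c1 : ℂ) * τ) {z w : ℂ}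
    (hz : InZ τ z) (hw : InZ τ w) : InZ τ (z * w) := by
  obtain ⟨x, y, rfl⟩ := hz
  obtain ⟨x', y', rfl⟩ := hw
  refine ⟨x * x' + y * y' * c0, x * y' + y * x' + y * y' * c1, ?_⟩
  push_cast
  linear_combination ((y : ℂ) * (y' : ℂ)) * hτ

theorem inZ_conj (τ : ℂ) (d0 d1 : ℤ) (hτ : (starRingEnd ℂ) τ = (d0 : ℂ) + (d1 : ℂ) * τ) {z : ℂ}
    (hz : InZ τ z) : InZ τ ((starRingEnd ℂ) z) := by
  obtain ⟨x, y, rfl⟩ := hz
  refine ⟨x + y * d0, y * d1, ?_⟩
  simp only [map_add, map_mul, map_intCast, hτ]
  push_cast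
  ring

/-- The common core: if both vectors have, up to phases and the factor `√6`, coordinates in
`ℤ + ℤ τ`, a ring closed under conjugation in which no element has squared modulus `6`, then the
squared modulus of their inner product is not `1/6`. -/
theorem core (τ : ℂ) (c0 c1 d0 d1 : ℤ) (hmul : τ * τ = (c0 : ℂ) + (c1 : ℂ) * τ)
    (hconj : (starRingEnd ℂ) τ = (d0 : ℂ) + (d1 : ℂ) * τ)
    (hnorm : ∀ x y : ℤ, ‖(x : ℂ) + (y : ℂ) * τ‖ ^ 2 ≠ 6)
    (u v : EuclideanSpace ℂ (Fin 6)) (θ φ : ℂ) (hθ : ‖θ‖ = 1) (hφ : ‖φ‖ = 1)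
    (hu : ∀ k, InZ τ (θ * ((Real.sqrt 6 : ℂ) * u k)))
    (hv : ∀ k, InZ τ (φ * ((Real.sqrt 6 : ℂ) * v k))) :
    ‖inner ℂ u v‖ ^ 2 ≠ 1 / 6 := by
  intro h
  have hS : InZ τ (∑ k, (starRingEnd ℂ) (θ * ((Real.sqrt 6 : ℂ) * u k)) *
      (φ * ((Real.sqrt 6 : ℂ) * v k))) := by
    apply Finset.sum_induction _ (InZ τ) (fun a b ha hb => inZ_add τ ha hb) (inZ_zero τ)
    intro k _
    exact inZ_mul τ c0 c1 hmul (inZ_conj τ d0 d1 hconj (hu k)) (hv k)
  have h6 : ((Real.sqrt 6 : ℝ) : ℂ) * ((Real.sqrt 6 : ℝ) : ℂ) = 6 := by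
    rw [← Complex.ofReal_mul, Real.mul_self_sqrt (by norm_num)]
    norm_num
  have heq : (∑ k, (starRingEnd ℂ) (θ * ((Real.sqrt 6 : ℂ) * u k)) *
      (φ * ((Real.sqrt 6 : ℂ) * v k))) = ((starRingEnd ℂ) θ * φ * 6) * inner ℂ u v := by
    rw [PiLp.inner_apply, Finset.mul_sum]
    apply Finset.sum_congr rfl
    intro k _
    rw [RCLike.inner_apply']
    simp only [map_mul, Complex.conj_ofReal]
    linear_combination ((starRingEnd ℂ) θ * φ * (starRingEnd ℂ) (u k) * v k) * h6
  obtain ⟨x, y, hxy⟩ := hS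
  apply hnorm x y
  rw [← hxy, heq]
  have hn : ‖(starRingEnd ℂ) θ * φ * 6 * inner ℂ u v‖ = 6 * ‖inner ℂ u v‖ := by
    rw [norm_mul, norm_mul, norm_mul, RCLike.norm_conj, hθ, hφ]
    norm_num
  rw [hn, mul_pow, h]
  norm_num

theorem rho_mul : rho * rho = ((-1 : ℤ) : ℂ) + ((-1 : ℤ) : ℂ) * rho := by
  have h3 : Real.sqrt 3 * Real.sqrt 3 = 3 := Real.mul_self_sqrt (by norm_num)
  apply Complex.ext
  · simp [rho]
    nlinarith
  · simp [rho]
    ring

theorem rho_conj : (starRingEnd ℂ) rho = ((-1 : ℤ) : ℂ) + ((-1 : ℤ) : ℂ) * rho := by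
  apply Complex.ext
  · simp [rho]
    ring
  · simp [rho]

theorem gauss_norm (x y : ℤ) : ‖(x : ℂ) + (y : ℂ) * Complex.I‖ ^ 2 ≠ 6 := by
  rw [Complex.sq_norm, Complex.normSq_apply]
  simp only [Complex.add_re, Complex.intCast_re, Complex.mul_re, Complex.I_re, mul_zero,
    Complex.intCast_im, Complex.I_im, mul_one, sub_self, add_zero, Complex.add_im,
    Complex.mul_im, zero_add]
  intro h
  have h' : x * x + y * y = 6 := by exact_mod_cast h
  have hx1 : x ≤ 2 := by nlinarith
  have hx2 : -2 ≤ x := by nlinarith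
  have hy1 : y ≤ 2 := by nlinarith
  have hy2 : -2 ≤ y := by nlinarith
  interval_cases x <;> interval_cases y <;> omega

theorem eisenstein_norm (x y : ℤ) : ‖(x : ℂ) + (y : ℂ) * rho‖ ^ 2 ≠ 6 := by
  have h3 : Real.sqrt 3 * Real.sqrt 3 = 3 := Real.mul_self_sqrt (by norm_num)
  rw [Complex.sq_norm, Complex.normSq_apply]
  simp only [rho, Complex.add_re, Complex.intCast_re, Complex.mul_re, Complex.intCast_im,
    Complex.add_im, Complex.mul_im, zero_mul, sub_zero, zero_add, add_zero]
  intro h
  have h' : ((x * x - x * y + y * y : ℤ) : ℝ) = 6 := by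
    push_cast
    nlinarith
  have h'' : x * x - x * y + y * y = 6 := by exact_mod_cast h'
  have hx1 : x ≤ 2 := by nlinarith [sq_nonneg (2 * y - x)]
  have hx2 : -2 ≤ x := by nlinarith [sq_nonneg (2 * y - x)]
  have hy1 : y ≤ 2 := by nlinarith [sq_nonneg (2 * x - y)]
  have hy2 : -2 ≤ y := by nlinarith [sq_nonneg (2 * x - y)]
  interval_cases x <;> interval_cases y <;> omega

theorem gaussian_not_unbiased (b c : Basis6)
    (hb : GaussianType b) (hc : GaussianType c) : ¬ MutuallyUnbiased b c := by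
  intro h
  obtain ⟨θ, hθ, hu⟩ := hb 0
  obtain ⟨φ, hφ, hv⟩ := hc 0
  refine core Complex.I (-1) 0 0 (-1) ?_ ?_ gauss_norm (b 0) (c 0) θ φ hθ hφ hu hv (h 0 0)
  · simp
  · simp

theorem eisenstein_not_unbiased (b c : Basis6)
    (hb : EisensteinType b) (hc : EisensteinType c) : ¬ MutuallyUnbiased b c := by
  intro h
  obtain ⟨θ, hθ, hu⟩ := hb 0
  obtain ⟨φ, hφ, hv⟩ := hc 0
  exact core rho (-1) (-1) (-1) (-1) rho_mul rho_conj eisenstein_norm (b 0) (c 0) θ φ
    hθ hφ hu hv (h 0 0)

/-- Mutually unbiased bases of `ℂ^6` of Gaussian and of Eisenstein type.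
(1) Two orthonormal bases of Gaussian type are never mutually unbiased.
(2) Two orthonormal bases of Eisenstein type are never mutually unbiased.
(3) A family of pairwise mutually unbiased orthonormal bases of `ℂ^6` in which every member,
with at most one exception `i0`, is of Gaussian or of Eisenstein type has at most three members. -/
theorem result :
    (∀ b c : Basis6, GaussianType b → GaussianType c → ¬ MutuallyUnbiased b c) ∧
    (∀ b c : Basis6, EisensteinType b → EisensteinType c → ¬ MutuallyUnbiased b c) ∧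
    (∀ (n : ℕ) (F : Fin n → Basis6) (i0 : Fin n),
      (∀ i j, i ≠ j → MutuallyUnbiased (F i) (F j)) →
      (∀ i, i ≠ i0 → GaussianType (F i) ∨ EisensteinType (F i)) →
      n ≤ 3) := by
  refine ⟨gaussian_not_unbiased, eisenstein_not_unbiased, ?_⟩
  intro n F i0 hMU hclass
  classical
  let g : Fin n → Fin 3 := fun i => if i = i0 then 0 else if GaussianType (F i) then 1 else 2
  have hg : Function.Injective g := by
    intro i j hij
    by_contra hne
    by_cases hi : i = i0
    · by_cases hj : j = i0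
      · exact hne (hi.trans hj.symm)
      · simp only [g, if_pos hi, if_neg hj] at hij
        split_ifs at hij <;> simp at hij
    · by_cases hj : j = i0
      · simp only [g, if_neg hi, if_pos hj] at hij
        split_ifs at hij <;> simp at hij
      · simp only [g, if_neg hi, if_neg hj] at hij
        by_cases hGi : GaussianType (F i)
        · by_cases hGj : GaussianType (F j)
          · exact gaussian_not_unbiased _ _ hGi hGj (hMU i j hne)
          · simp [if_pos hGi, if_neg hGj] at hij
        · by_cases hGj : GaussianType (F j)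
          · simp [if_neg hGi, if_pos hGj] at hij
          · have hEi := (hclass i hi).resolve_left hGi
            have hEj := (hclass j hj).resolve_left hGj
            exact eisenstein_not_unbiased _ _ hEi hEj (hMU i j hne)
  have := Fintype.card_le_of_injective g hg
  simpa using this

end Vale.Agent.Results.P355.A_ButsonTypeBases
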