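import Mathlib
import Vale.Agent.Results.P355.A_ButsonTypeBases

/-!
# P355: Gaussian and Eisenstein type bases of `ℂ^6`, with examples

The three statements of `A_ButsonTypeBases`, together with explicit bases: there is an orthonormal
basis of Gaussian type (a Hadamard matrix of order six with entries in `{1, -1, i, -i}`) that is
mutually unbiased to the standard basis, and there is one of Eisenstein type (the Fourier matrix
of order six).  So both classes are inhabited and the two-element bound is attained.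
-/

namespace Vale.Agent.Results.P355.B_ButsonTypeSharp

open Vale.Agent.Results.P355.A_ButsonTypeBases

theorem sqrt6_mul : ((Real.sqrt 6 : ℝ) : ℂ) * ((Real.sqrt 6 : ℝ) : ℂ) = 6 := by
  rw [← Complex.ofReal_mul, Real.mul_self_sqrt (by norm_num)]
  norm_num

theorem sqrt6_ne : ((Real.sqrt 6 : ℝ) : ℂ) ≠ 0 := by
  intro h
  have := sqrt6_mul
  rw [h] at this
  norm_num at this

/-- An orthonormal basis of `ℂ^6` with prescribed rows `M i / √6`, for a matrix `M` whose rows
are pairwise orthogonal of squared length six. -/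
theorem exists_basis (M : Fin 6 → Fin 6 → ℂ)
    (h : ∀ i j, ∑ k, (starRingEnd ℂ) (M i k) * M j k = if i = j then 6 else 0) :
    ∃ b : Basis6, ∀ i k, coord b i k = M i k / ((Real.sqrt 6 : ℝ) : ℂ) := by
  let v : Fin 6 → EuclideanSpace ℂ (Fin 6) :=
    fun i => WithLp.toLp 2 (fun k => M i k / ((Real.sqrt 6 : ℝ) : ℂ))
  have hon : Orthonormal ℂ v := by
    rw [orthonormal_iff_ite]
    intro i j
    rw [PiLp.inner_apply]
    have e : ∀ k, inner ℂ ((v i) k) ((v j) k) = ((starRingEnd ℂ) (M i k) * M j k) / 6 := by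
      intro k
      rw [RCLike.inner_apply']
      simp only [v, map_div₀, Complex.conj_ofReal]
      rw [div_mul_div_comm, sqrt6_mul]
    simp_rw [e]
    rw [← Finset.sum_div, h]
    split_ifs <;> simp
  have hsp : ⊤ ≤ Submodule.span ℂ (Set.range v) :=
    (hon.linearIndependent.span_eq_top_of_card_eq_finrank' (by simp)).ge
  refine ⟨OrthonormalBasis.mk hon hsp, fun i k => ?_⟩
  simp [coord, v]

theorem gauss_sq (x y : ℤ) :
    ‖(x : ℂ) + (y : ℂ) * Complex.I‖ ^ 2 = ((x * x + y * y : ℤ) : ℝ) := by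
  rw [Complex.sq_norm, Complex.normSq_apply]
  simp

theorem eisenstein_sq (x y : ℤ) :
    ‖(x : ℂ) + (y : ℂ) * rho‖ ^ 2 = ((x * x - x * y + y * y : ℤ) : ℝ) := by
  have h3 : Real.sqrt 3 * Real.sqrt 3 = 3 := Real.mul_self_sqrt (by norm_num)
  rw [Complex.sq_norm, Complex.normSq_apply]
  simp only [rho, Complex.add_re, Complex.intCast_re, Complex.mul_re, Complex.intCast_im,
    Complex.add_im, Complex.mul_im, zero_mul, sub_zero, zero_add, add_zero]
  push_cast
  nlinarith

/-- exponents of `i` in a Hadamard matrix of order six with entries fourth roots of unity -/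
def gexp : Fin 6 → Fin 6 → Fin 4 :=
  ![![0, 0, 0, 0, 0, 0], ![0, 0, 1, 2, 2, 3], ![0, 1, 3, 0, 2, 2],
    ![0, 2, 1, 3, 0, 2], ![0, 2, 3, 2, 1, 0], ![0, 3, 2, 1, 3, 1]]

/-- real parts of the powers of `i` -/
def gX : Fin 4 → ℤ := ![1, 0, -1, 0]

/-- imaginary parts of the powers of `i` -/
def gY : Fin 4 → ℤ := ![0, 1, 0, -1]

/-- coefficients of `1` in the powers of `1 + ρ`, a primitive sixth root of unity -/
def eX : Fin 6 → ℤ := ![1, 1, 0, -1, -1, 0]

/-- coefficients of `ρ` in the powers of `1 + ρ` -/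
def eY : Fin 6 → ℤ := ![0, 1, 1, 0, -1, -1]

theorem gauss_ortho_re : ∀ i j : Fin 6,
    ∑ k, (gX (gexp i k) * gX (gexp j k) + gY (gexp i k) * gY (gexp j k)) =
      if i = j then 6 else 0 := by decide

theorem gauss_ortho_im : ∀ i j : Fin 6,
    ∑ k, (gX (gexp i k) * gY (gexp j k) - gY (gexp i k) * gX (gexp j k)) = 0 := by decide

theorem gauss_unit : ∀ e : Fin 4, gX e * gX e + gY e * gY e = 1 := by decide

theorem eis_ortho_re : ∀ i j : Fin 6,
    ∑ k, (eX (i * k) * eX (j * k) - eY (i * k) * eX (j * k) + eY (i * k) * eY (j * k)) =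
      if i = j then 6 else 0 := by decide

theorem eis_ortho_im : ∀ i j : Fin 6,
    ∑ k, (eX (i * k) * eY (j * k) - eY (i * k) * eX (j * k)) = 0 := by decide

theorem eis_unit : ∀ e : Fin 6, eX e * eX e - eX e * eY e + eY e * eY e = 1 := by decide

theorem unbiased_std (M : Fin 6 → Fin 6 → ℂ) (hM : ∀ i k, ‖M i k‖ ^ 2 = 1) (b : Basis6)
    (hb : ∀ i k, coord b i k = M i k / ((Real.sqrt 6 : ℝ) : ℂ)) :
    MutuallyUnbiased (EuclideanSpace.basisFun (Fin 6) ℂ) b := by
  intro i j
  rw [EuclideanSpace.basisFun_inner]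
  have : (b j) i = M j i / ((Real.sqrt 6 : ℝ) : ℂ) := hb j i
  rw [this, norm_div, div_pow, hM, Complex.norm_real, Real.norm_eq_abs, sq_abs,
    Real.sq_sqrt (by norm_num)]

theorem exists_gaussian :
    ∃ b : Basis6, GaussianType b ∧ MutuallyUnbiased (EuclideanSpace.basisFun (Fin 6) ℂ) b := by
  let M : Fin 6 → Fin 6 → ℂ :=
    fun i k => ((gX (gexp i k) : ℤ) : ℂ) + ((gY (gexp i k) : ℤ) : ℂ) * Complex.I
  have hprod : ∀ x y x' y' : ℤ,
      (starRingEnd ℂ) ((x : ℂ) + (y : ℂ) * Complex.I) * ((x' : ℂ) + (y' : ℂ) * Complex.I) =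
        ((x * x' + y * y' : ℤ) : ℂ) + ((x * y' - y * x' : ℤ) : ℂ) * Complex.I := by
    intro x y x' y'
    simp only [map_add, map_mul, map_intCast, Complex.conj_I]
    push_cast
    linear_combination (-(y : ℂ) * (y' : ℂ)) * Complex.I_mul_I
  have hM : ∀ i j, ∑ k, (starRingEnd ℂ) (M i k) * M j k = if i = j then 6 else 0 := by
    intro i j
    simp only [M, hprod]
    rw [Finset.sum_add_distrib, ← Finset.sum_mul, ← Int.cast_sum, ← Int.cast_sum,
      gauss_ortho_re, gauss_ortho_im]
    split_ifs <;> simp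
  obtain ⟨b, hb⟩ := exists_basis M hM
  refine ⟨b, ?_, unbiased_std M ?_ b hb⟩
  · intro i
    refine ⟨1, by simp, fun k => ⟨gX (gexp i k), gY (gexp i k), ?_⟩⟩
    rw [hb, one_mul, mul_div_cancel₀ _ sqrt6_ne]
  · intro i k
    simp only [M]
    rw [gauss_sq, gauss_unit]
    norm_num

theorem exists_eisenstein :
    ∃ b : Basis6, EisensteinType b ∧ MutuallyUnbiased (EuclideanSpace.basisFun (Fin 6) ℂ) b := by
  let M : Fin 6 → Fin 6 → ℂ :=
    fun i k => ((eX (i * k) : ℤ) : ℂ) + ((eY (i * k) : ℤ) : ℂ) * rho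
  have hprod : ∀ x y x' y' : ℤ,
      (starRingEnd ℂ) ((x : ℂ) + (y : ℂ) * rho) * ((x' : ℂ) + (y' : ℂ) * rho) =
        ((x * x' - y * x' + y * y' : ℤ) : ℂ) + ((x * y' - y * x' : ℤ) : ℂ) * rho := by
    intro x y x' y'
    simp only [map_add, map_mul, map_intCast, rho_conj]
    push_cast
    linear_combination (-(y : ℂ) * (y' : ℂ)) * rho_mul
  have hM : ∀ i j, ∑ k, (starRingEnd ℂ) (M i k) * M j k = if i = j then 6 else 0 := by
    intro i j
    simp only [M, hprod]
    rw [Finset.sum_add_distrib, ← Finset.sum_mul, ← Int.cast_sum, ← Int.cast_sum,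
      eis_ortho_re, eis_ortho_im]
    split_ifs <;> simp
  obtain ⟨b, hb⟩ := exists_basis M hM
  refine ⟨b, ?_, unbiased_std M ?_ b hb⟩
  · intro i
    refine ⟨1, by simp, fun k => ⟨eX (i * k), eY (i * k), ?_⟩⟩
    rw [hb, one_mul, mul_div_cancel₀ _ sqrt6_ne]
  · intro i k
    simp only [M]
    rw [eisenstein_sq, eis_unit]
    norm_num

/-- Mutually unbiased bases of `ℂ^6` of Gaussian and of Eisenstein type, with examples.
(1) Two orthonormal bases of Gaussian type are never mutually unbiased.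
(2) Two orthonormal bases of Eisenstein type are never mutually unbiased.
(3) A family of pairwise mutually unbiased orthonormal bases of `ℂ^6` in which every member,
with at most one exception `i0`, is of Gaussian or of Eisenstein type has at most three members.
(4) Some orthonormal basis of Gaussian type is mutually unbiased to the standard basis.
(5) Some orthonormal basis of Eisenstein type is mutually unbiased to the standard basis. -/
theorem result :
    (∀ b c : Basis6, GaussianType b → GaussianType c → ¬ MutuallyUnbiased b c) ∧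
    (∀ b c : Basis6, EisensteinType b → EisensteinType c → ¬ MutuallyUnbiased b c) ∧
    (∀ (n : ℕ) (F : Fin n → Basis6) (i0 : Fin n),
      (∀ i j, i ≠ j → MutuallyUnbiased (F i) (F j)) →
      (∀ i, i ≠ i0 → GaussianType (F i) ∨ EisensteinType (F i)) →
      n ≤ 3) ∧
    (∃ b : Basis6, GaussianType b ∧ MutuallyUnbiased (EuclideanSpace.basisFun (Fin 6) ℂ) b) ∧
    (∃ b : Basis6, EisensteinType b ∧ MutuallyUnbiased (EuclideanSpace.basisFun (Fin 6) ℂ) b) :=
  ⟨A_ButsonTypeBases.result.1, A_ButsonTypeBases.result.2.1, A_ButsonTypeBases.result.2.2,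
    exists_gaussian, exists_eisenstein⟩

end Vale.Agent.Results.P355.B_ButsonTypeSharp
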